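import Vale.Agent.P247.H74.K2H.K2H

/-!
# P247, package K4: limits of embedded tori are embedded
-/

open scoped ContDiff Topology
open Set MeasureTheory Filter Metric

noncomputable section

namespace Vale.Agent.P247.H690

open Vale.Agent.P247.H74
open Vale.Agent.P247.H74.K2H (coordL coordL_apply coord_apply hasFDerivAt_up fderiv_up_one JH_up)

/-! ## Locally uniform convergence as continuous convergence -/

lemma tlu_iff {α β : Type*} [TopologicalSpace α] [PseudoMetricSpace β] {F : ℕ → α → β}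
    {f : α → β} (hf : Continuous f) : TendstoLocallyUniformly F f atTop ↔
      ∀ x, Tendsto (fun y : ℕ × α => F y.1 y.2) (atTop ×ˢ 𝓝 x) (𝓝 (f x)) := by
  rw [tendstoLocallyUniformly_iff_forall_tendsto]
  refine forall_congr' fun x => ?_
  have hfx : Tendsto (fun y : ℕ × α => f y.2) (atTop ×ˢ 𝓝 x) (𝓝 (f x)) :=
    (hf.tendsto x).comp tendsto_snd
  rw [tendsto_uniformity_iff_dist_tendsto_zero]
  constructor
  · intro h
    exact hfx.congr_dist h
  · intro h
    have := hfx.dist h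
    rwa [dist_self] at this

lemma continuousAt_coord {τ z : ℂ} (hτ : 0 < τ.im) :
    ContinuousAt (fun q : ℂ × ℂ => coord q.1 q.2) (τ, z) := by
  have h0 : (τ, z).1.im ≠ 0 := hτ.ne'
  have h1 : ContinuousAt (fun q : ℂ × ℂ => q.2.im / q.1.im) (τ, z) :=
    (by fun_prop : ContinuousAt (fun q : ℂ × ℂ => q.2.im) (τ, z)).div
      (by fun_prop) h0
  have h2 : ContinuousAt (fun q : ℂ × ℂ => q.2.re - q.1.re * (q.2.im / q.1.im)) (τ, z) :=
    (by fun_prop : ContinuousAt (fun q : ℂ × ℂ => q.2.re) (τ, z)).sub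
      ((by fun_prop : ContinuousAt (fun q : ℂ × ℂ => q.1.re) (τ, z)).mul h1)
  exact h2.prodMk h1

lemma tendsto_clm_comp {ι E F G : Type*} [NormedAddCommGroup E] [NormedSpace ℝ E]
    [NormedAddCommGroup F] [NormedSpace ℝ F] [NormedAddCommGroup G] [NormedSpace ℝ G]
    {l : Filter ι} {A : ι → F →L[ℝ] G} {B : ι → E →L[ℝ] F} {a : F →L[ℝ] G} {b : E →L[ℝ] F}
    (hA : Tendsto A l (𝓝 a)) (hB : Tendsto B l (𝓝 b)) :
    Tendsto (fun i => (A i).comp (B i)) l (𝓝 (a.comp b)) :=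
  ((isBoundedBilinearMap_comp (𝕜 := ℝ) (E := E) (F := F) (G := G)).continuous.tendsto
    (a, b)).comp (hA.prodMk_nhds hB)

lemma coordL_eq (τ : ℂ) : coordL τ = (ContinuousLinearMap.inl ℝ ℝ ℝ).comp Complex.reCLM
    - (τ.re / τ.im) • (ContinuousLinearMap.inl ℝ ℝ ℝ).comp Complex.imCLM
    + (1 / τ.im) • (ContinuousLinearMap.inr ℝ ℝ ℝ).comp Complex.imCLM := by
  ext z <;> simp [K2H.coordL]

lemma continuousAt_coordL {τ : ℂ} (hτ : 0 < τ.im) : ContinuousAt coordL τ := by
  have h0 : τ.im ≠ 0 := hτ.ne'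
  have e1 : coordL = fun τ : ℂ => (ContinuousLinearMap.inl ℝ ℝ ℝ).comp Complex.reCLM
    - (τ.re / τ.im) • (ContinuousLinearMap.inl ℝ ℝ ℝ).comp Complex.imCLM
    + (1 / τ.im) • (ContinuousLinearMap.inr ℝ ℝ ℝ).comp Complex.imCLM := funext coordL_eq
  rw [e1]
  have h1 : ContinuousAt (fun τ : ℂ => τ.re / τ.im) τ :=
    ContinuousAt.div (by fun_prop) (by fun_prop) h0
  have h2 : ContinuousAt (fun τ : ℂ => 1 / τ.im) τ :=
    ContinuousAt.div (by fun_prop) (by fun_prop) h0
  exact (continuousAt_const.sub (h1.smul continuousAt_const)).add (h2.smul continuousAt_const)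

lemma contDiff_phi' {f : P2 → R4} (hf : ContDiff ℝ ∞ f) : ContDiff ℝ ∞ (phi f) :=
  K2H.contDiff_lin.add hf

lemma tendC1_phi {fn : ℕ → P2 → R4} {f : P2 → R4} (hf : ContDiff ℝ ∞ f)
    (hfn : ∀ n, ContDiff ℝ ∞ (fn n)) (h : TendC1 fn f) : TendC1 (fun n => phi (fn n)) (phi f) := by
  constructor
  · rw [tlu_iff (contDiff_phi' hf).continuous]
    intro x
    have h1 := (tlu_iff hf.continuous).1 h.1 x
    have h2 : Tendsto (fun y : ℕ × P2 => lin y.2) (atTop ×ˢ 𝓝 x) (𝓝 (lin x)) :=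
      (K2H.contDiff_lin.continuous.tendsto x).comp tendsto_snd
    exact h2.add h1
  · have hd : ∀ g : P2 → R4, ContDiff ℝ ∞ g → ∀ p, fderiv ℝ (phi g) p
        = fderiv ℝ lin p + fderiv ℝ g p := fun g hg p =>
      fderiv_add (K2H.contDiff_lin.differentiable (by simp) p) (hg.differentiable (by simp) p)
    rw [tlu_iff ((contDiff_phi' hf).continuous_fderiv (by simp))]
    intro x
    have h1 := (tlu_iff (hf.continuous_fderiv (by simp))).1 h.2 x
    have h2 : Tendsto (fun y : ℕ × P2 => fderiv ℝ lin y.2) (atTop ×ˢ 𝓝 x) (𝓝 (fderiv ℝ lin x)) :=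
      ((K2H.contDiff_lin.continuous_fderiv (by simp)).tendsto x).comp tendsto_snd
    have h3 := h2.add h1
    rw [hd f hf x]
    refine h3.congr fun y => ?_
    rw [hd _ (hfn y.1)]

/-- convergence in the complex coordinate -/
lemma tendC1_up {fn : ℕ → P2 → R4} {f : P2 → R4} {τn : ℕ → ℂ} {τ : ℂ} (hf : ContDiff ℝ ∞ f)
    (hfn : ∀ n, ContDiff ℝ ∞ (fn n)) (hτ0 : 0 < τ.im) (h : TendC1 fn f)
    (hτ : Tendsto τn atTop (𝓝 τ)) : TendC1 (fun n => up (fn n) (τn n)) (up f τ) := by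
  have hφ := tendC1_phi hf hfn h
  have hc : ∀ z, Tendsto (fun y : ℕ × ℂ => coord (τn y.1) y.2) (atTop ×ˢ 𝓝 z)
      (𝓝 (coord τ z)) := by
    intro z
    have h1 : Tendsto (fun y : ℕ × ℂ => (τn y.1, y.2)) (atTop ×ˢ 𝓝 z) (𝓝 (τ, z)) :=
      (hτ.comp tendsto_fst).prodMk_nhds tendsto_snd
    exact (continuousAt_coord hτ0).tendsto.comp h1
  have hpair : ∀ z, Tendsto (fun y : ℕ × ℂ => (y.1, coord (τn y.1) y.2)) (atTop ×ˢ 𝓝 z)
      (atTop ×ˢ 𝓝 (coord τ z)) := fun z => tendsto_fst.prodMk (hc z)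
  have hcont : Continuous (up f τ) := by
    have : up f τ = fun z => phi f (coordL τ z) := by
      funext z
      rw [coordL_apply]
      rfl
    rw [this]
    exact (contDiff_phi' hf).continuous.comp (coordL τ).continuous
  have hfd : ∀ z, fderiv ℝ (up f τ) z = (fderiv ℝ (phi f) (coord τ z)).comp (coordL τ) :=
    fun z => (hasFDerivAt_up hf τ z).fderiv
  have hcont2 : Continuous (fderiv ℝ (up f τ)) := by
    have : fderiv ℝ (up f τ) = fun z => (fderiv ℝ (phi f) (coordL τ z)).comp (coordL τ) := by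
      funext z
      rw [hfd, coordL_apply]
    rw [this]
    exact (((contDiff_phi' hf).continuous_fderiv (by simp)).comp
      (coordL τ).continuous).clm_comp continuous_const
  constructor
  · rw [tlu_iff hcont]
    intro z
    have h1 := (tlu_iff (contDiff_phi' hf).continuous).1 hφ.1 (coord τ z)
    have h2 := h1.comp (hpair z)
    exact h2
  · rw [tlu_iff hcont2]
    intro z
    have h1 := (tlu_iff ((contDiff_phi' hf).continuous_fderiv (by simp))).1 hφ.2 (coord τ z)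
    have h2 : Tendsto (fun y : ℕ × ℂ => fderiv ℝ (phi (fn y.1)) (coord (τn y.1) y.2))
        (atTop ×ˢ 𝓝 z) (𝓝 (fderiv ℝ (phi f) (coord τ z))) := by
      have h2 := h1.comp (hpair z)
      exact h2
    have h3 : Tendsto (fun y : ℕ × ℂ => coordL (τn y.1)) (atTop ×ˢ 𝓝 z) (𝓝 (coordL τ)) :=
      (continuousAt_coordL hτ0).tendsto.comp (hτ.comp tendsto_fst)
    have h4 : Tendsto (fun y : ℕ × ℂ => (fderiv ℝ (phi (fn y.1)) (coord (τn y.1) y.2)).comp
        (coordL (τn y.1))) (atTop ×ˢ 𝓝 z)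
        (𝓝 ((fderiv ℝ (phi f) (coord τ z)).comp (coordL τ))) := tendsto_clm_comp h2 h3
    rw [hfd]
    refine h4.congr fun y => ?_
    exact ((hasFDerivAt_up (hfn y.1) (τn y.1) y.2).fderiv).symm

/-! ## The torus in the complex coordinate -/

lemma coord_inj {τ : ℂ} (hτ : 0 < τ.im) {z z' : ℂ} (h : coord τ z = coord τ z') : z = z' := by
  have h1 : z.im / τ.im = z'.im / τ.im := congrArg Prod.snd h
  have h2 : z.re - τ.re * (z.im / τ.im) = z'.re - τ.re * (z'.im / τ.im) := congrArg Prod.fst h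
  have h3 : z.im = z'.im := (div_left_inj' hτ.ne').1 h1
  refine Complex.ext ?_ h3
  rw [h3] at h2
  linarith

lemma up_injective {f : P2 → R4} {τ : ℂ} (hτ : 0 < τ.im) (h : Inj f) :
    Function.Injective (up f τ) := fun _ _ hz => coord_inj hτ (h hz)

lemma lin_int (m n : ℤ) (p : P2) :
    lin (p.1 + m, p.2 + n) = lin p + (m : ℝ) • e 2 + (n : ℝ) • e 3 := by
  funext i
  simp only [Pi.add_apply, Pi.smul_apply, lin, e, Pi.single_apply]
  fin_cases i <;> simp

lemma lift_up {f : P2 → R4} {τ : ℂ} (hτ : 0 < τ.im) (hf : Per f) : Lift τ (up f τ) := by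
  intro m n z
  have h1 : coord τ (z + m + n * τ) = ((coord τ z).1 + m, (coord τ z).2 + n) := by
    unfold coord
    have e1 : (z + m + n * τ).im = z.im + n * τ.im := by simp
    have e2 : (z + m + n * τ).re = z.re + m + n * τ.re := by simp
    rw [e1, e2]
    have e3 : (z.im + n * τ.im) / τ.im = z.im / τ.im + n := by field_simp
    rw [e3]
    ext
    · simp only
      ring
    · rfl
  unfold up phi
  rw [h1, lin_int, hf m n (coord τ z)]
  abel

lemma e_ne_zero (i : Fin 4) : e i ≠ 0 := by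
  intro h
  have := congrFun h i
  simp [e] at this

lemma up_nonconst {f : P2 → R4} {τ : ℂ} (hτ : 0 < τ.im) (hf : Per f) :
    ∃ z w, up f τ z ≠ up f τ w := by
  refine ⟨0 + ((1 : ℤ) : ℂ) + ((0 : ℤ) : ℂ) * τ, 0, fun h => ?_⟩
  rw [lift_up hτ hf 1 0 0] at h
  have h2 : ((1 : ℤ) : ℝ) • e 2 + ((0 : ℤ) : ℝ) • e 3 = 0 := by
    have : up f τ 0 + (((1 : ℤ) : ℝ) • e 2 + ((0 : ℤ) : ℝ) • e 3) = up f τ 0 := by
      rw [← add_assoc]; exact h
    exact left_eq_add.1 this.symm
  refine e_ne_zero 2 ?_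
  simpa using h2

/-! ## K4 -/

theorem K4 (hL1 : L1_statement) (hS : S_statement) (hCE : CE_statement) (hP6 : P6_statement) :
    K4_statement := by
  intro D fn τn f τ hJn hJ hC1 hτ hInj hdis
  set u := up f τ with hu
  have hτ0 := hJ.im_pos
  have hJH : JH D u := JH_up hJ
  have hLift : Lift τ u := lift_up hτ0 hJ.per
  have hnc := up_nonconst (f := f) hτ0 hJ.per
  have hP := hP6 D u hJH hnc
  have hUC := tendC1_up hJ.smooth (fun n => (hJn n).smooth) hτ0 hC1 hτ
  have hfdc : Continuous fun z => fderiv ℝ u z 1 :=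
    (hJH.1.continuous_fderiv (by simp)).clm_apply continuous_const
  have hdouble : ∀ z z', z ≠ z' → u z = u z' → fderiv ℝ u z' 1 = 0 := by
    intro z z' hne heq
    by_contra hcr
    rcases hL1 D u u z z' hJH hJH heq hcr with ⟨ε, hε, ζ, hζd, hζ0, hζ⟩ | ⟨-, hst⟩
    · have hζc : ContinuousAt ζ z :=
        (hζd.continuousOn.continuousAt (isOpen_ball.mem_nhds (mem_ball_self hε)))
      have ev1 : ∀ᶠ z₁ in 𝓝[≠] z, fderiv ℝ u z₁ 1 ≠ 0 := (hP z).mono fun _ h => h.1
      have ev2 : ∀ᶠ z₁ in 𝓝 z, z₁ ∈ ball z ε := isOpen_ball.mem_nhds (mem_ball_self hε)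
      have ev3 : ∀ᶠ z₁ in 𝓝 z, fderiv ℝ u (ζ z₁) 1 ≠ 0 := by
        have h1 : ContinuousAt (fun z₁ => fderiv ℝ u (ζ z₁) 1) z :=
          ContinuousAt.comp (g := fun w => fderiv ℝ u w 1) hfdc.continuousAt hζc
        refine h1.eventually_ne ?_
        rw [hζ0]
        exact hcr
      have ev4 : ∀ᶠ z₁ in 𝓝 z, z₁ ≠ ζ z₁ := by
        have h1 : ContinuousAt (fun z₁ => z₁ - ζ z₁) z := continuousAt_id.sub hζc
        have h2 : z - ζ z ≠ 0 := by rw [hζ0]; exact sub_ne_zero.2 hne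
        filter_upwards [h1.eventually_ne h2] with z₁ h3
        exact sub_ne_zero.1 h3
      obtain ⟨z₁, h1, h2, h3, h4⟩ := (ev1.and ((ev2.and (ev3.and ev4)).filter_mono
        nhdsWithin_le_nhds)).exists
      refine hS D u τ hJH hτ0 hLift z₁ (ζ z₁) h4 h1 h3 ?_
      have hδ : 0 < ε - dist z₁ z := by
        have : dist z₁ z < ε := h2
        linarith
      have hsub : ball z₁ (ε - dist z₁ z) ⊆ ball z ε := ball_subset_ball' (by linarith)
      exact ⟨ε - dist z₁ z, hδ, ζ, hζd.mono hsub, rfl, fun w hw => hζ w (hsub hw)⟩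
    · have hd : 0 < dist z z' / 2 := by
        have := dist_pos.2 hne
        linarith
      obtain ⟨n, w, hw, w', hw', hww⟩ := (hst (dist z z' / 2) hd (fun n => up (fn n) (τn n))
        (fun n => up (fn n) (τn n))
        (fun n => (JH_up (hJn n)).1.of_le (by exact_mod_cast le_top))
        (fun n => (JH_up (hJn n)).1.of_le (by exact_mod_cast le_top)) hUC hUC).exists
      have : w = w' := up_injective (hJn n).im_pos (hInj n) hww
      rw [← this] at hw'
      have h1 : dist w z < dist z z' / 2 := hw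
      have h2 : dist w z' < dist z z' / 2 := hw'
      have h3 := dist_triangle_left z z' w
      linarith
  have hdouble2 : ∀ z z', z ≠ z' → u z = u z' → fderiv ℝ u z 1 = 0 ∧ fderiv ℝ u z' 1 = 0 :=
    fun z z' hne heq => ⟨hdouble z' z hne.symm heq.symm, hdouble z z' hne heq⟩
  -- back to the parameter plane
  have hback : ∀ p : P2, phi f p = u ((p.1 : ℂ) + p.2 * τ) := by
    intro p
    rw [hu]
    unfold up
    rw [coord_apply τ hτ0 p]
  have hloc : ∀ p, ∃ ε > 0, ∀ q ∈ ball p ε, ∀ q' ∈ ball p ε, phi f q = phi f q' → q = q' := by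
    intro p
    set z₀ : ℂ := (p.1 : ℂ) + p.2 * τ with hz₀
    have h1 := hP z₀
    rw [eventually_nhdsWithin_iff, Metric.eventually_nhds_iff] at h1
    obtain ⟨δ, hδ, h1⟩ := h1
    have hcz : Continuous fun q : P2 => (q.1 : ℂ) + q.2 * τ := by fun_prop
    obtain ⟨ε, hε, h2⟩ := Metric.continuousAt_iff.1 (hcz.continuousAt (x := p)) δ hδ
    refine ⟨ε, hε, fun q hq q' hq' heq => ?_⟩
    by_contra hne
    have hzz : (q.1 : ℂ) + q.2 * τ ≠ (q'.1 : ℂ) + q'.2 * τ := by
      intro h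
      apply hne
      rw [← coord_apply τ hτ0 q, ← coord_apply τ hτ0 q', h]
    rw [hback, hback] at heq
    obtain ⟨c1, c2⟩ := hdouble2 _ _ hzz heq
    have e1 : (q.1 : ℂ) + q.2 * τ = z₀ := by
      by_contra hn
      exact (h1 (h2 hq) hn).1 c1
    have e2 : (q'.1 : ℂ) + q'.2 * τ = z₀ := by
      by_contra hn
      exact (h1 (h2 hq') hn).1 c2
    exact hzz (e1.trans e2.symm)
  have hImm : Imm f := hCE D fn f τ hJ (fun n => (hJn n).smooth) (fun n => (hJn n).per) hC1 hdis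
    hloc
  refine ⟨hImm, fun p q hpq => ?_⟩
  by_contra hne
  have hzz : (p.1 : ℂ) + p.2 * τ ≠ (q.1 : ℂ) + q.2 * τ := by
    intro h
    apply hne
    rw [← coord_apply τ hτ0 p, ← coord_apply τ hτ0 q, h]
  rw [hback, hback] at hpq
  have := hdouble _ _ hzz hpq
  rw [hu, fderiv_up_one hJ.smooth] at this
  exact hImm _ this

end Vale.Agent.P247.H690
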